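import Vale.Agent.P314.Main

/-!
# P314: an explicit hitting set for noncommutative formulas

For all `n` and `s` there is one explicit tuple of `n` matrices with entries `0` and `1`, of
dimension `(n + s + 1)^9`, given by an arithmetic rule that does not depend on the field, at which
every nonzero noncommutative polynomial computed by a formula of size at most `s` is nonzero.
-/

namespace Vale.Agent.Results.P314.ExplicitTuple

open _root_.P314

/-- The rule for the entries: the row index `r` stands for the pair `(r / M, r % M)` and the column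
index `c` for the pair `(c / M, c % M)`, where `M = (n + s + 1) ^ 6`. -/
def entry (n s i r c : ℕ) : Prop :=
  c / (n + s + 1) ^ 6 < r / (n + s + 1) ^ 6 ∧
    (r / (n + s + 1) ^ 6 - c / (n + s + 1) ^ 6) % n = (i + 1) % n ∧
    c % (n + s + 1) ^ 6 ≤ r % (n + s + 1) ^ 6 ∧
    r / (n + s + 1) ^ 6 ∣ (r % (n + s + 1) ^ 6 - c % (n + s + 1) ^ 6)

instance (n s i r c : ℕ) : Decidable (entry n s i r c) := by
  unfold entry; infer_instance

/-- The explicit tuple of `0/1` matrices of dimension `(n + s + 1) ^ 9`. -/
def tuple (F : Type*) [Field F] (n s : ℕ) : MatTuple F n :=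
  ⟨(n + s + 1) ^ 9, fun i => Matrix.of fun r c => if entry n s i r c then 1 else 0⟩

theorem result : ∀ (F : Type*) [Field F] (n s : ℕ),
    IsHittingSet [tuple F n s] (FormulaClass F n s) := by
  intro F _ n s f hf hne
  refine ⟨tuple F n s, List.mem_singleton.mpr rfl, ?_⟩
  have h1 := Vale.Agent.P314.hits_formula F n s hf hne
  have key : ∀ (d : ℕ), d = (n + s + 1) ^ 3 * (n + s + 1) ^ 6 →
      evalAt (⟨d, fun i => Matrix.of fun r c => if entry n s i r c then 1 else 0⟩ :
        MatTuple F n) f ≠ 0 := by
    rintro _ rfl
    exact h1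
  exact key _ (by ring)

end Vale.Agent.Results.P314.ExplicitTuple
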