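import Vale.Agent.P314.Main
import Vale.Agent.P314.Glue

/-!
# P314: deterministic black-box identity testing for noncommutative formulas in polynomial time

For every field `F` whose elements are encoded by bit strings there is a family of hitting sets
`H (n, s)` for the noncommutative formulas of size at most `s` in `n` variables, whose complete
printout is computed by one polynomial time Turing machine from the input `1^n 0^s`.
-/

namespace Vale.Agent.Results.P314.PolyTimeHittingSet

open _root_.P314

theorem result (F : Type*) [Field F] (code : F → List Bool) (hcode : Function.Injective code) :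
    (∀ n : ℕ, Function.Injective (printHS code (n := n))) ∧
    ∃ H : (p : ℕ × ℕ) → List (MatTuple F p.1),
      (∀ n s : ℕ, IsHittingSet (H (n, s)) (FormulaClass F n s)) ∧
      (∃ M : Turing.TM2ComputableInPolyTime inputCode id (fun p => printHS code (H p)),
        ∀ k, Finite (M.tm.Γ k)) ∧
      (∀ n s : ℕ, ∃ T : Fin n → Matrix (Fin ((n + s + 1) ^ 9)) (Fin ((n + s + 1) ^ 9)) F,
        H (n, s) = [⟨(n + s + 1) ^ 9, T⟩] ∧ ∀ i r c, T i r c = 0 ∨ T i r c = 1) := by
  refine ⟨fun n => printHS_injective hcode n,
    fun p => [⟨hitD p.1 p.2, tupleOf p.1 (hitD p.1 p.2) (hitP p.1 p.2)⟩], ?_,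
    hit_printable code, ?_⟩
  · intro n s f hf hne
    refine ⟨_, List.mem_singleton.2 rfl, ?_⟩
    have h1 := Vale.Agent.P314.hits_formula F n s hf hne
    have h2 : (tupleOf n (hitD n s) (hitP n s) :
        Fin n → Matrix (Fin (hitD n s)) (Fin (hitD n s)) F) =
        Vale.Agent.P314.hitM F n ((n + s + 1) ^ 3) ((n + s + 1) ^ 6) := by
      funext i
      ext x y
      simp only [tupleOf, Vale.Agent.P314.hitM, Matrix.of_apply, hitP, decide_eq_true_eq]
      rfl
    rw [← h2] at h1
    exact h1
  · intro n s
    have hd : hitD n s = (n + s + 1) ^ 9 := by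
      unfold hitD
      ring
    show ∃ T : Fin n → Matrix (Fin ((n + s + 1) ^ 9)) (Fin ((n + s + 1) ^ 9)) F,
      [(⟨hitD n s, tupleOf n (hitD n s) (hitP n s)⟩ : MatTuple F n)] =
        [⟨(n + s + 1) ^ 9, T⟩] ∧ ∀ i r c, T i r c = 0 ∨ T i r c = 1
    rw [hd]
    refine ⟨_, rfl, ?_⟩
    intro i r c
    simp only [tupleOf, Matrix.of_apply]
    split_ifs
    · exact Or.inr rfl
    · exact Or.inl rfl

end Vale.Agent.Results.P314.PolyTimeHittingSet
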